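import Vale.Agent.P233.N2.IfST
import Vale.Agent.P233.H866.RS5b
import Vale.Agent.P233.H866.RDens2

/-! P233, stage 3, Theorem N with a density function: blocks S5, S6 and the field `InS.asy`
(port of H866/RS5b, RS6, RAsy). helper866. -/

set_option linter.all false

open MeasureTheory Filter Topology Set
open scoped ENNReal NNReal

universe u

namespace Vale.Agent.P233.N2.S866

open Vale.Agent.P233.RA Vale.Agent.P233.H866

variable {M : Type u} [MetricSpace M] [MeasurableSpace M] {m : Measure M} {n : ℕ} {K : ℝ}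
  {θ : M → ℝ} {δ : ℝ}

/-- the field `InS.asy` -/
theorem asy_of [BorelSpace M] [SecondCountableTopology M] (hN : NSp2 m n K θ) :
    ∀ᵐ x ∂m, ∀ η : ℝ, 0 < η →
    Tendsto (fun τ => tht m n K θ η τ x) (𝓝[>] 0) (𝓝 1) ∧
    Tendsto (fun τ => mom m n K θ η τ x) (𝓝[>] 0) (𝓝 ((n : ℝ) / 2)) := by
  filter_upwards [hN.dens] with x hx η hη
  exact ⟨asy0 hη (hN.fin x η) (hN.θ_pos x) hx, asy1 hη (hN.fin x η) (hN.θ_pos x) hx⟩

theorem good_empty : Good m n K θ (∅ : Set M) :=
  ⟨MeasurableSet.empty, Bornology.isBounded_empty, fun η hη ε hε =>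
    Eventually.of_forall fun j x hx => absurd hx (notMem_empty x)⟩

section main

variable [BorelSpace M] [ProperSpace M]

/-- **S6**: the contraction, from the local inequality. -/
theorem outCd_of (hS : InS m n K θ δ) (hloc : LocI m n K δ) : OutCd m n K δ := by
  intro ρ ρ' σ σ' hρ hσ φ ψ hφ hψ hle p q T hp hq hT
  have hN := hS.hN
  have hδ0 : 0 ≤ δ := hS.ok.1.le
  have hc := cost_cc (M := M) hδ0
  set D : ℝ → ℝ := fun t => H886.Dc (cc δ) (dm (Q m (p * t) ρ)) (dm (Q m (q * t) σ)) with hD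
  have hCρ : ∀ t : ℝ, 0 ≤ t → CD m (Q m (p * t) ρ) (Q m (p * t) ρ') := fun t ht =>
    hS.flow ρ ρ' hρ _ (mul_nonneg hp ht)
  have hCσ : ∀ t : ℝ, 0 ≤ t → CD m (Q m (q * t) σ) (Q m (q * t) σ') := fun t ht =>
    hS.flow σ σ' hσ _ (mul_nonneg hq ht)
  -- continuity
  have hcont : ContinuousOn D (Icc 0 T) := by
    have hL : ∀ s ∈ Icc 0 T, ∀ t ∈ Icc 0 T, |D s - D t| ≤
        (δ * (p / 2 * N1 ρ' + q / 2 * N1 σ')) * |s - t| := by
      intro s hs t ht
      have b1 := Dc_lip hδ0 (hCρ s hs.1) (hCσ s hs.1) (hCρ t ht.1) (hCσ t ht.1)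
      have b2 := hS.lip ρ ρ' hρ (p * t) (p * s) (mul_nonneg hp ht.1) (mul_nonneg hp hs.1)
      have b3 := hS.lip σ σ' hσ (q * t) (q * s) (mul_nonneg hq ht.1) (mul_nonneg hq hs.1)
      rw [← mul_sub, abs_mul, abs_of_nonneg hp] at b2
      rw [← mul_sub, abs_mul, abs_of_nonneg hq] at b3
      refine b1.trans ?_
      have b4 : N1 (Q m (p * s) ρ - Q m (p * t) ρ) ≤ p * |s - t| / 2 * N1 ρ' := b2
      have b5 : N1 (Q m (q * s) σ - Q m (q * t) σ) ≤ q * |s - t| / 2 * N1 σ' := b3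
      calc δ * (N1 (Q m (p * s) ρ - Q m (p * t) ρ) + N1 (Q m (q * s) σ - Q m (q * t) σ))
          ≤ δ * (p * |s - t| / 2 * N1 ρ' + q * |s - t| / 2 * N1 σ') :=
            mul_le_mul_of_nonneg_left (add_le_add b4 b5) hδ0
        _ = _ := by ring
    have hC0 : 0 ≤ δ * (p / 2 * N1 ρ' + q / 2 * N1 σ') := by
      have := N1_nonneg ρ'
      have := N1_nonneg σ'
      positivity
    have : LipschitzOnWith ⟨_, hC0⟩ D (Icc 0 T) :=
      LipschitzOnWith.of_dist_le_mul fun s hs t ht => by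
        rw [Real.dist_eq, Real.dist_eq]
        exact hL s hs t ht
    exact this.continuousOn
  have hb : 0 ≤ (n : ℝ) / 2 * (√p - √q) ^ 2 := by positivity
  -- left difference quotients
  have hleft : ∀ t ∈ Ioc (0 : ℝ) T, ∀ ε > 0, ∃ᶠ h in 𝓝[>] (0 : ℝ),
      D t - D (t - h) ≤ h * ((n : ℝ) / 2 * (√p - √q) ^ 2 + Cst n K δ p q * D t + ε) := by
    intro t ht ε hε
    have ht0 : 0 < t := ht.1
    have c1 := hCρ t ht0.le
    have c2 := hCσ t ht0.le
    haveI := cdP c1
    haveI := cdP c2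
    obtain ⟨γ, f, g, ho, hγD, hdual⟩ :=
      exists_opt' hδ0 (dm (Q m (p * t) ρ)) (dm (Q m (q * t) σ))
    obtain ⟨⟨Lf, hfL⟩, -⟩ := ho.adm.bl1
    obtain ⟨⟨Lg, hgL⟩, -⟩ := ho.adm.bl2
    have hl := hloc _ _ _ _ c1 c2 γ f g ho p q hp hq
    rw [hγD] at hl
    have hl' : p / 2 * ∫ x, f x * (Q m (p * t) ρ') x ∂m + q / 2 * ∫ y, g y * (Q m (q * t) σ') y ∂m
        ≤ n / 2 * (√p - √q) ^ 2 + Cst n K δ p q * D t := hl
    -- the function `u`
    have d1 := hS.deriv ρ ρ' hρ f hfL.continuous.measurable ⟨δ, ho.bdφ⟩ (p * t)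
      (mul_nonneg hp ht0.le)
    have d2 := hS.deriv σ σ' hσ g hgL.continuous.measurable ⟨δ, ho.bdψ⟩ (q * t)
      (mul_nonneg hq ht0.le)
    have l1 : HasDerivWithinAt (fun s : ℝ => p * s) p (Ici 0) t := by
      simpa using ((hasDerivAt_id t).const_mul p).hasDerivWithinAt
    have l2 : HasDerivWithinAt (fun s : ℝ => q * s) q (Ici 0) t := by
      simpa using ((hasDerivAt_id t).const_mul q).hasDerivWithinAt
    have d3 := d1.comp t l1 (fun s (hs : 0 ≤ s) => mul_nonneg hp hs)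
    have d4 := d2.comp t l2 (fun s (hs : 0 ≤ s) => mul_nonneg hq hs)
    have d5 := d3.add d4
    set U : ℝ → ℝ := fun s => ∫ x, f x * Q m (p * s) ρ x ∂m + ∫ y, g y * Q m (q * s) σ y ∂m
      with hU
    set d : ℝ := 2⁻¹ * (∫ x, f x * Q m (p * t) ρ' x ∂m) * p
      + 2⁻¹ * (∫ x, g x * Q m (q * t) σ' x ∂m) * q with hd
    have d6 : HasDerivWithinAt U d (Ici 0) t := d5
    have hdle : d ≤ n / 2 * (√p - √q) ^ 2 + Cst n K δ p q * D t := by
      rw [hd]
      linarith
    rw [hasDerivWithinAt_iff_tendsto_slope] at d6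
    have hmap : Tendsto (fun h : ℝ => t - h) (𝓝[>] 0) (𝓝[Ici 0 \ {t}] t) := by
      refine tendsto_nhdsWithin_iff.2 ⟨?_, ?_⟩
      · have : Tendsto (fun h : ℝ => t - h) (𝓝 0) (𝓝 (t - 0)) :=
          (continuous_const.sub continuous_id).tendsto 0
        rw [sub_zero] at this
        exact this.mono_left nhdsWithin_le_nhds
      · have hsmall : ∀ᶠ h : ℝ in 𝓝[>] 0, h < t :=
          (eventually_lt_nhds ht0).filter_mono nhdsWithin_le_nhds
        filter_upwards [self_mem_nhdsWithin, hsmall] with h hh hht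
        have hh0 : (0 : ℝ) < h := hh
        refine ⟨?_, ?_⟩
        · show (0 : ℝ) ≤ t - h
          linarith
        · intro h1
          have h2 : t - h = t := h1
          linarith
    have d7 := d6.comp hmap
    have hsmall : ∀ᶠ h : ℝ in 𝓝[>] 0, h < t :=
      (eventually_lt_nhds ht0).filter_mono nhdsWithin_le_nhds
    refine Eventually.frequently ?_
    filter_upwards [self_mem_nhdsWithin, hsmall, d7.eventually (gt_mem_nhds (lt_add_of_pos_right d hε))]
      with h hh hht hlt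
    have hh0 : (0 : ℝ) < h := hh
    have c3 := hCρ (t - h) (by linarith)
    have c4 := hCσ (t - h) (by linarith)
    haveI := cdP c3
    haveI := cdP c4
    have w1 := H886.dual_le hc (μ := dm (Q m (p * (t - h)) ρ)) (ν := dm (Q m (q * (t - h)) σ))
      hfL.continuous.measurable hgL.continuous.measurable ho.bdφ ho.bdψ ho.adm.le
    rw [int_dm c3, int_dm c4] at w1
    rw [int_dm c1, int_dm c2] at hdual
    have hDt : D t = U t := hdual
    have hDh : U (t - h) ≤ D (t - h) := w1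
    have hsl : (t - h - t)⁻¹ * (U (t - h) - U t) < d + ε := by
      have : _root_.slope U t (t - h) = (t - h - t)⁻¹ * (U (t - h) - U t) := by
        rw [slope_def_field]
        rw [div_eq_inv_mul]
      rw [← this]
      exact hlt
    have hsl2 : U t - U (t - h) < h * (d + ε) := by
      have e3 : (t - h - t)⁻¹ * (U (t - h) - U t) = h⁻¹ * (U t - U (t - h)) := by
        have : t - h - t = -h := by ring
        rw [this, inv_neg]
        ring
      rw [e3] at hsl
      have := mul_lt_mul_of_pos_left hsl hh0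
      have e4 : h * (h⁻¹ * (U t - U (t - h))) = U t - U (t - h) := by
        field_simp
      rwa [e4] at this
    have hfin : h * (d + ε) ≤ h * ((n : ℝ) / 2 * (√p - √q) ^ 2 + Cst n K δ p q * D t + ε) :=
      mul_le_mul_of_nonneg_left (by linarith) hh0.le
    linarith
  have hg := gron_left hT hb hcont hleft
  -- the left side
  obtain ⟨⟨L1, hφL⟩, B1, hφB⟩ := hφ
  obtain ⟨⟨L2, hψL⟩, B2, hψB⟩ := hψ
  have c5 := hCρ T hT
  have c6 := hCσ T hT
  haveI := cdP c5
  haveI := cdP c6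
  have v1 := H886.dual_le hc (μ := dm (Q m (p * T) ρ)) (ν := dm (Q m (q * T) σ))
    hφL.continuous.measurable hψL.continuous.measurable (B := max B1 B2)
    (fun x => (hφB x).trans (le_max_left _ _)) (fun x => (hψB x).trans (le_max_right _ _)) hle
  rw [int_dm c5, int_dm c6] at v1
  refine v1.trans (hg.trans ?_)
  have hD0 : D 0 ≤ ∫ x, ∫ y, cc δ x y * (ρ x * σ y) ∂m ∂m := by
    have : D 0 = H886.Dc (cc δ) (dm ρ) (dm σ) := by
      simp only [hD, mul_zero]
      rw [hS.sg.zero ρ (hN.isDir.memLp ρ hρ.lap.1), hS.sg.zero σ (hN.isDir.memLp σ hσ.lap.1)]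
    rw [this]
    exact Dc_prod hδ0 hρ hσ
  have := mul_le_mul_of_nonneg_left hD0 (Real.exp_pos (Cst n K δ p q * T)).le
  linarith

theorem aS_nonneg (h4 : Blk_S4.{u}) (hS : InS m n K θ δ) {ρ ρ' σ σ' : M →ₘ[m] ℝ}
    (hρ : CD m ρ ρ') (hσ : CD m σ σ') {γ : Measure (M × M)} {φ ψ : M → ℝ}
    (ho : Opt δ (dm ρ) (dm σ) γ φ ψ) : 0 ≤ aS n K δ γ φ ρ' := by
  have h := h4 m n K θ δ hS ρ ρ' σ σ' hρ hσ γ φ ψ ho ∅ good_empty ∅ MeasurableSet.empty
    (empty_subset _) 1 one_pos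
  by_contra hneg
  push Not at hneg
  obtain ⟨j, hj⟩ := (h (-aS n K δ γ φ ρ' / 4) (by linarith)).exists
  rw [Measure.restrict_empty, integral_zero_measure] at hj
  have h1 := tau_pos j
  nlinarith

/-- exhaustion of the region in which the cost is not cut off -/
theorem exhaust (h3 : Blk_S3.{u}) (hS : InS m n K θ δ) {ρ ρ' σ σ' : M →ₘ[m] ℝ}
    (hρ : CD m ρ ρ') (hσ : CD m σ σ') {γ : Measure (M × M)} {φ ψ : M → ℝ}
    (ho : Opt δ (dm ρ) (dm σ) γ φ ψ) :
    ∃ (E E' : ℕ → Set M) (B : ℕ → Set (M × M)), (∀ k, Good m n K θ (E k)) ∧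
      (∀ k, Good m n K θ (E' k)) ∧ (∀ k, MeasurableSet (B k)) ∧ (∀ k, B k ⊆ E k ×ˢ E' k) ∧
      (∀ k, ∀ z ∈ B k, dist z.1 z.2 ^ 2 / 2 ≤ δ - tau k) ∧
      Tendsto (fun k => (γ (B k)).toReal) atTop (𝓝 (γ (cutA M δ)).toReal) ∧
      Tendsto (fun k => ∫ z in B k, cc δ z.1 z.2 ∂γ) atTop
        (𝓝 (∫ z in cutA M δ, cc δ z.1 z.2 ∂γ)) := by
  haveI := cdP hρ
  haveI := cdP hσ
  haveI : IsProbabilityMeasure γ := (opt_plan ho).isProb
  have hδ := hS.ok.1
  have hc := cost_cc (M := M) hδ.le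
  have hci := hc.integrable γ
  have hpos : ∀ k, 0 < ENNReal.ofReal (tau k) := fun k => ENNReal.ofReal_pos.2 (tau_pos k)
  choose E hE hEs using fun k => h3 m n K θ δ hS (dm ρ) (dm_ac ρ) _ (hpos k)
  choose E' hE' hEs' using fun k => h3 m n K θ δ hS (dm σ) (dm_ac σ) _ (hpos k)
  have hdm : Measurable fun z : M × M => dist z.1 z.2 ^ 2 / 2 :=
    ((continuous_fst.dist continuous_snd).pow 2 |>.div_const 2).measurable
  have hAm : MeasurableSet (cutA M δ) := hdm measurableSet_Iio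
  set B : ℕ → Set (M × M) := fun k => {z | dist z.1 z.2 ^ 2 / 2 ≤ δ - tau k} ∩ (E k ×ˢ E' k)
    with hB
  have hBm : ∀ k, MeasurableSet (B k) := fun k =>
    (hdm measurableSet_Iic).inter ((hE k).meas.prod (hE' k).meas)
  have hBA : ∀ k, B k ⊆ cutA M δ := fun k z hz => by
    have h1 : dist z.1 z.2 ^ 2 / 2 ≤ δ - tau k := hz.1
    have := tau_pos k
    show dist z.1 z.2 ^ 2 / 2 < δ
    linarith
  -- the layer near the cut-off
  set S : ℕ → Set (M × M) := fun k => {z | δ - tau k < dist z.1 z.2 ^ 2 / 2 ∧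
    dist z.1 z.2 ^ 2 / 2 < δ} with hSdef
  have hSm : ∀ k, MeasurableSet (S k) := fun k =>
    (hdm measurableSet_Ioi).inter (hdm measurableSet_Iio)
  have hSanti : Antitone S := fun i j hij z hz =>
    ⟨lt_of_le_of_lt (sub_le_sub_left (tau_anti hij) δ) hz.1, hz.2⟩
  have hSlim : Tendsto (fun k => γ (S k)) atTop (𝓝 0) := by
    have h1 := tendsto_measure_iInter_atTop (μ := γ) (s := S) (fun k => (hSm k).nullMeasurableSet)
      hSanti ⟨0, measure_ne_top _ _⟩
    have h2 : ⋂ k, S k = ∅ := by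
      rw [eq_empty_iff_forall_notMem]
      intro z hz
      rw [mem_iInter] at hz
      have h3 : dist z.1 z.2 ^ 2 / 2 < δ := (hz 0).2
      have h4 : ∀ k, δ - dist z.1 z.2 ^ 2 / 2 ≤ tau k := fun k => by
        have := (hz k).1
        linarith
      have h5 := ge_of_tendsto' tau_tendsto h4
      linarith
    rwa [h2, measure_empty] at h1
  have hfst : ∀ k, γ {z | z.1 ∉ E k} ≤ ENNReal.ofReal (tau k) := fun k => by
    have h1 : γ {z | z.1 ∉ E k} = dm ρ (E k)ᶜ := by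
      rw [← ho.fst, Measure.map_apply measurable_fst (hE k).meas.compl]
      rfl
    rw [h1]
    exact hEs k
  have hsnd : ∀ k, γ {z | z.2 ∉ E' k} ≤ ENNReal.ofReal (tau k) := fun k => by
    have h1 : γ {z | z.2 ∉ E' k} = dm σ (E' k)ᶜ := by
      rw [← ho.snd, Measure.map_apply measurable_snd (hE' k).meas.compl]
      rfl
    rw [h1]
    exact hEs' k
  have hdiff : ∀ k, γ (cutA M δ \ B k) ≤ γ (S k) + ENNReal.ofReal (tau k)
      + ENNReal.ofReal (tau k) := fun k => by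
    have h1 : cutA M δ \ B k ⊆ (S k ∪ {z | z.1 ∉ E k}) ∪ {z | z.2 ∉ E' k} := by
      rintro z ⟨hz1, hz2⟩
      by_cases c1 : z.1 ∈ E k
      · by_cases c2 : z.2 ∈ E' k
        · refine Or.inl (Or.inl ⟨?_, hz1⟩)
          by_contra c3
          exact hz2 ⟨not_lt.1 c3, c1, c2⟩
        · exact Or.inr c2
      · exact Or.inl (Or.inr c1)
    refine (measure_mono h1).trans ((measure_union_le _ _).trans ?_)
    exact add_le_add ((measure_union_le _ _).trans (add_le_add le_rfl (hfst k))) (hsnd k)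
  have hofr : Tendsto (fun k => ENNReal.ofReal (tau k)) atTop (𝓝 0) := by
    have := ENNReal.tendsto_ofReal tau_tendsto
    rwa [ENNReal.ofReal_zero] at this
  have hr : Tendsto (fun k => γ (cutA M δ \ B k)) atTop (𝓝 0) := by
    have h1 := (hSlim.add hofr).add hofr
    rw [add_zero, add_zero] at h1
    exact tendsto_of_tendsto_of_tendsto_of_le_of_le tendsto_const_nhds h1 (fun _ => bot_le) hdiff
  have hr' : Tendsto (fun k => (γ (cutA M δ \ B k)).toReal) atTop (𝓝 0) := by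
    have := (ENNReal.tendsto_toReal ENNReal.zero_ne_top).comp hr
    rw [ENNReal.toReal_zero] at this
    exact this
  have e1 : ∀ k, (γ (B k)).toReal = (γ (cutA M δ)).toReal - (γ (cutA M δ \ B k)).toReal := fun k => by
    have := measureReal_diff (μ := γ) (hBA k) (hBm k)
    unfold Measure.real at this
    linarith
  have e2 : ∀ k, ∫ z in B k, cc δ z.1 z.2 ∂γ = ∫ z in cutA M δ, cc δ z.1 z.2 ∂γ
      - ∫ z in cutA M δ \ B k, cc δ z.1 z.2 ∂γ := fun k => by
    have := integral_diff (μ := γ) (f := fun z : M × M => cc δ z.1 z.2) (hBm k)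
      hci.integrableOn (hBA k)
    linarith
  have e3 : ∀ k, |∫ z in cutA M δ \ B k, cc δ z.1 z.2 ∂γ| ≤ δ * (γ (cutA M δ \ B k)).toReal :=
    fun k => by
    have := norm_setIntegral_le_of_norm_le_const (μ := γ) (s := cutA M δ \ B k)
      (f := fun z : M × M => cc δ z.1 z.2) (C := δ) (measure_lt_top _ _) (fun z _ => by
        rw [Real.norm_eq_abs, abs_of_nonneg (hc.nonneg _ _)]
        exact hc.le _ _)
    rw [Real.norm_eq_abs] at this
    exact this
  refine ⟨E, E', B, hE, hE', hBm, fun k => inter_subset_right, fun k z hz => hz.1, ?_, ?_⟩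
  · simp_rw [e1]
    have := hr'.const_sub (γ (cutA M δ)).toReal
    rwa [sub_zero] at this
  · simp_rw [e2]
    have h1 : Tendsto (fun k => ∫ z in cutA M δ \ B k, cc δ z.1 z.2 ∂γ) atTop (𝓝 0) := by
      have h2 := hr'.const_mul δ
      rw [mul_zero] at h2
      exact squeeze_zero_norm (fun k => by rw [Real.norm_eq_abs]; exact e3 k) h2
    have := h1.const_sub (∫ z in cutA M δ, cc δ z.1 z.2 ∂γ)
    rwa [sub_zero] at this


end main

/-- **S5** -/
theorem blk_S5 (h3 : Blk_S3.{u}) (h4 : Blk_S4.{u}) (h25 : Blk_S25.{u}) : Blk_S5.{u} := by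
  intro M _ _ _ _ m n K θ δ hS ρ ρ' σ σ' hρ hσ γ φ ψ ho
  have a1 := aS_nonneg h4 hS hρ hσ ho
  have a2 : 0 ≤ aS n K δ γ ψ σ' := by
    have := aS_nonneg h4 hS hσ hρ ho.swap
    rwa [aS_swap] at this
  refine ⟨a1, a2, fun hal => ?_⟩
  have hn : (0 : ℝ) < n := by exact_mod_cast hS.hN.n_pos
  obtain ⟨E, E', B, hE, hE', hBm, hBs, hBd, hlim1, hlim2⟩ := exhaust h3 hS hρ hσ ho
  set al := (γ (cutA M δ)).toReal with hal'
  set Ac := ∫ z in cutA M δ, cc δ z.1 z.2 ∂γ with hAc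
  have key : ∀ l > 0, ∀ l' > 0, 0 ≤ -((n : ℝ) / 2) * Real.log (l * l') - n
      + (l * aS n K δ γ φ ρ' + l' * aS n K δ γ ψ σ') / (2 * al) - K / (3 * al) * Ac := by
    intro l hl l' hl'
    have ht : Tendsto (fun k => -((n : ℝ) / 2) * Real.log (l * l') - n
        + (l * aS n K δ γ φ ρ' + l' * aS n K δ γ ψ σ') / (2 * (γ (B k)).toReal)
        - K / (3 * (γ (B k)).toReal) * ∫ z in B k, cc δ z.1 z.2 ∂γ) atTop
        (𝓝 (-((n : ℝ) / 2) * Real.log (l * l') - n
        + (l * aS n K δ γ φ ρ' + l' * aS n K δ γ ψ σ') / (2 * al) - K / (3 * al) * Ac)) := by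
      have t1 : Tendsto (fun k => (l * aS n K δ γ φ ρ' + l' * aS n K δ γ ψ σ')
          / (2 * (γ (B k)).toReal)) atTop
          (𝓝 ((l * aS n K δ γ φ ρ' + l' * aS n K δ γ ψ σ') / (2 * al))) :=
        tendsto_const_nhds.div (hlim1.const_mul 2) (by positivity)
      have t2 : Tendsto (fun k => K / (3 * (γ (B k)).toReal)) atTop (𝓝 (K / (3 * al))) :=
        tendsto_const_nhds.div (hlim1.const_mul 3) (by positivity)
      exact (t1.const_add _).sub (t2.mul hlim2)
    refine ge_of_tendsto ht ?_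
    filter_upwards [hlim1.eventually (lt_mem_nhds hal)] with k hk
    have hne : γ (B k) ≠ 0 := fun h0 => by
      rw [h0, ENNReal.toReal_zero] at hk
      exact lt_irrefl _ hk
    exact h25 m n K θ δ hS ρ ρ' σ σ' hρ hσ γ φ ψ ho (E k) (E' k) (hE k) (hE' k) (B k) (hBm k)
      (hBs k) hne (tau k) (tau_pos k) (hBd k) l l' hl hl'
  obtain ⟨-, -, h⟩ := opt hn hal key
  refine le_trans (le_of_eq ?_) h
  congr 2
  field_simp

/-- **S6** -/
theorem blk_S6 (h5 : Blk_S5.{u}) : Blk_S6.{u} := by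
  intro M _ _ _ _ m n K θ δ hS
  exact outCd_of hS (locI_of hS.hN.n_pos hS.ok (h5 m n K θ δ hS))

/-- the parts S and T, from the blocks S3, S4, S25 and the input -/
theorem blk_ST_of' (hIn : Blk_InS.{u}) (h3 : Blk_S3.{u}) (h4 : Blk_S4.{u})
    (h25 : Blk_S25.{u}) : Blk_ST.{u} :=
  N2.blk_ST_of hIn (blk_S6 (blk_S5 h3 h4 h25))

end Vale.Agent.P233.N2.S866
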